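import Vale.Agent.P017.R3.H985.D1a
import Vale.Agent.P017.R3.H224.Dict

/-!
# P017, even discriminants: the linear system of the class group criterion

`c = 0`: discriminant `-4m`, `c = 1`: discriminant `-8m`, `m = n p` odd.
-/

open Finset

namespace Vale.Agent.P017.R4.H538

open Vale.Agent.P017.R2.H985 (bit PF Pat sym Mat cork)
open Vale.Agent.P017.R2.H816
open Vale.Agent.P017.R3
open Vale.Agent.P017.R3.H985 (bit_dvd sum_pf ker_zero ext_mulVec)
open Vale.Agent.P017.H185

/-- the symbols `(2/q)` -/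
def lam (n : ℕ) : PF n → ZMod 2 := fun q => bit (2 : ℤ) (q : ℕ)

theorem add_self' (t : ZMod 2) : t + t = 0 := CharTwo.add_self_eq_zero t

theorem sq_self' (t : ZMod 2) : t * t = t := by revert t; decide

/-- the linear system -/
theorem core {n p : ℕ} (hn : Squarefree n) (ho : Odd n) (hp : p.Prime) (hp2 : p ≠ 2)
    (hpn : ¬ p ∣ n) (c s : ZMod 2) (hs : s = (∑ q : PF n, mu n q) + eps p + 1) (x : ℕ → ZMod 2)
    (hE : ∀ q : ℕ, q.Prime → (q ∣ n ∨ q = p) → (∑ r : PF n, x r * bit ((r : ℕ) : ℤ) q) +
      x p * bit (p : ℤ) q + x 2 * bit (2 : ℤ) q +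
      x q * ((∑ k : PF n, bit ((k : ℕ) : ℤ) q) + bit (p : ℤ) q + c * bit (2 : ℤ) q) = 0)
    (hc : ck (ext (Mat n (sym n p) + Matrix.diagonal (c • lam n)) (lam n) (c • lam n + s • mu n)
      ((∑ q : PF n, lam n q) + bit (2 : ℤ) p)) = 0) :
    (∀ r : PF n, x r = x p) ∧ x 2 = c * x p := by
  classical
  have hn0 := hn.ne_zero
  have hqp : ∀ q : PF n, (q : ℕ).Prime := fun q => Nat.prime_of_mem_primeFactors q.2
  have hqn : ∀ q : PF n, (q : ℕ) ∣ n := fun q => Nat.dvd_of_mem_primeFactors q.2
  have hq2 : ∀ q : PF n, (q : ℕ) ≠ 2 := H224.pf_ne_two ho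
  have hqpne : ∀ q : PF n, (q : ℕ) ≠ p := fun q h => hpn (h ▸ hqn q)
  have hpp : bit (p : ℤ) p = 0 := bit_self hp
  have hqq : ∀ q : PF n, bit ((q : ℕ) : ℤ) q = 0 := fun q => bit_self (hqp q)
  -- reciprocity
  have hrec : ∀ q r : PF n, bit ((q : ℕ) : ℤ) r + bit ((r : ℕ) : ℤ) q =
      if q = r then 0 else mu n q * mu n r := by
    intro q r
    split_ifs with h
    · subst h
      rw [hqq, add_zero]
    · exact H224.bit_rec (hqp q) (hqp r) (hq2 q) (hq2 r) (fun h' => h (Subtype.ext h'))
  have hrecp : ∀ q : PF n, bit ((q : ℕ) : ℤ) p + bit (p : ℤ) q = mu n q * eps p := fun q =>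
    H224.bit_rec (hqp q) hp (hq2 q) hp2 (hqpne q)
  obtain ⟨N, hN⟩ : ∃ N, N = ∑ q : PF n, mu n q := ⟨_, rfl⟩
  rw [← hN] at hs
  -- column sums
  have hcol : ∀ r : PF n, (∑ q : PF n, (bit ((r : ℕ) : ℤ) q + bit ((q : ℕ) : ℤ) r)) =
      mu n r * (N + 1) := by
    intro r
    have h1 : ∀ q : PF n, bit ((r : ℕ) : ℤ) q + bit ((q : ℕ) : ℤ) r =
        mu n r * mu n q + if r = q then mu n r else 0 := by
      intro q
      rw [hrec r q]
      split_ifs with h
      · subst h
        rw [sq_self', add_self']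
      · rw [add_zero]
    rw [sum_congr rfl fun q _ => h1 q, sum_add_distrib, ← mul_sum, ← hN, sum_ite_eq univ r,
      if_pos (mem_univ _)]
    ring
  let v : Option (PF n) → ZMod 2 := fun a => match a with
    | some q => x q + x p
    | none => x 2 + c * x p
  -- sum of all equations
  have hsum := hE p hp (Or.inr rfl)
  rw [hpp, mul_zero, add_zero, add_zero] at hsum
  have hsumq : ∑ q : PF n, ((∑ r : PF n, x r * bit ((r : ℕ) : ℤ) q) +
      x p * bit (p : ℤ) q + x 2 * bit (2 : ℤ) q +
      x q * ((∑ k : PF n, bit ((k : ℕ) : ℤ) q) + bit (p : ℤ) q + c * bit (2 : ℤ) q)) = 0 :=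
    sum_eq_zero fun q _ => hE q (hqp q) (Or.inl (hqn q))
  have key : (∑ r : PF n, x r * (c * lam n r + s * mu n r)) + x 2 * ((∑ q : PF n, lam n q) +
      bit (2 : ℤ) p) + x p * (c * bit (2 : ℤ) p + s * eps p) = 0 := by
    have e1 : ∑ q : PF n, ((∑ r : PF n, x r * bit ((r : ℕ) : ℤ) q) +
        x p * bit (p : ℤ) q + x 2 * bit (2 : ℤ) q +
        x q * ((∑ k : PF n, bit ((k : ℕ) : ℤ) q) + bit (p : ℤ) q + c * bit (2 : ℤ) q)) =
        (∑ r : PF n, x r * (mu n r * (N + 1) + bit (p : ℤ) r + c * lam n r)) +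
          x p * (∑ q : PF n, bit (p : ℤ) q) + x 2 * ∑ q : PF n, lam n q := by
      rw [sum_add_distrib, sum_add_distrib, sum_add_distrib, sum_comm, ← mul_sum]
      have f1 : ∑ i : PF n, x 2 * bit (2 : ℤ) i = x 2 * ∑ q : PF n, lam n q := by
        rw [← mul_sum]; rfl
      have f2 : (∑ y : PF n, ∑ x_1 : PF n, x y * bit ((y : ℕ) : ℤ) x_1) +
          ∑ i : PF n, x i * ((∑ k : PF n, bit ((k : ℕ) : ℤ) i) + bit (p : ℤ) i +
            c * bit (2 : ℤ) i) =
          ∑ r : PF n, x r * (mu n r * (N + 1) + bit (p : ℤ) r + c * lam n r) := by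
        rw [← sum_add_distrib]
        apply sum_congr rfl
        intro r _
        rw [← mul_sum, ← mul_add, ← hcol r, sum_add_distrib]
        unfold lam
        congr 1
        ring
      rw [f1, ← f2]
      ring
    rw [e1] at hsumq
    have e2 : ∀ q : PF n, bit (p : ℤ) q = bit ((q : ℕ) : ℤ) p + mu n q * eps p := by
      intro q
      have := hrecp q
      have h2 := add_self' (bit ((q : ℕ) : ℤ) p)
      linear_combination this - h2
    have e3 : ∑ q : PF n, bit (p : ℤ) q = (∑ q : PF n, bit ((q : ℕ) : ℤ) p) + N * eps p := by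
      rw [sum_congr rfl fun q _ => e2 q, sum_add_distrib, ← sum_mul, ← hN]
    have e4 : (∑ r : PF n, x r * (mu n r * (N + 1) + bit (p : ℤ) r + c * lam n r)) =
        (∑ r : PF n, x r * (c * lam n r + s * mu n r)) + ∑ r : PF n, x r * bit ((r : ℕ) : ℤ) p := by
      rw [← sum_add_distrib]
      apply sum_congr rfl
      intro r _
      rw [e2 r, hs]
      have h2 := add_self' (mu n r * eps p)
      ring
    rw [e3, e4] at hsumq
    have h2 := add_self' (∑ r : PF n, x r * bit ((r : ℕ) : ℤ) p)
    have h3 := add_self' (x p * ∑ q : PF n, bit ((q : ℕ) : ℤ) p)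
    have h4 : s * eps p = N * eps p := by
      rw [hs]
      have h5 := sq_self' (eps p)
      have h6 := add_self' (eps p)
      linear_combination h5 + h6
    rw [h4]
    linear_combination hsumq + hsum - h2 - h3
  have hv : v = 0 := by
    apply ker_zero _ hc
    have hext := ext_mulVec (Mat n (sym n p) + Matrix.diagonal (c • lam n)) (lam n)
      (c • lam n + s • mu n) ((∑ q : PF n, lam n q) + bit (2 : ℤ) p) v
    funext a
    rw [Pi.zero_apply]
    cases a with
    | some q =>
      rw [hext.1 q, Matrix.add_mulVec, Pi.add_apply, mulVec_Mat, Matrix.mulVec_diagonal]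
      have h1 := hE q (hqp q) (Or.inl (hqn q))
      have g1 : (∑ r : PF n, v (some r) * bit ((r : ℕ) : ℤ) q) =
          (∑ r : PF n, x r * bit ((r : ℕ) : ℤ) q) + x p * ∑ r : PF n, bit ((r : ℕ) : ℤ) q := by
        rw [mul_sum, ← sum_add_distrib]
        apply sum_congr rfl
        intro r _
        show (x r + x p) * bit ((r : ℕ) : ℤ) q = _
        ring
      have g2 : v (some q) = x q + x p := rfl
      have g3 : v none = x 2 + c * x p := rfl
      have g4 : sym n p q = bit (p : ℤ) q := rfl
      have g5 : (c • lam n) q = c * bit (2 : ℤ) q := rfl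
      have g6 : lam n q = bit (2 : ℤ) q := rfl
      rw [g1, g2, g3, g4, g5, g6]
      have h2 := add_self' (x p * ∑ r : PF n, bit ((r : ℕ) : ℤ) q)
      have h3 := add_self' (c * bit (2 : ℤ) q * x p)
      linear_combination h1 + h2 + h3
    | none =>
      rw [hext.2]
      have g1 : (∑ q : PF n, (c • lam n + s • mu n) q * v (some q)) =
          (∑ r : PF n, x r * (c * lam n r + s * mu n r)) +
            x p * (c * ∑ q : PF n, lam n q) + x p * (s * N) := by
        rw [hN, mul_sum, mul_sum, mul_sum, mul_sum, ← sum_add_distrib, ← sum_add_distrib]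
        apply sum_congr rfl
        intro q _
        show (c * lam n q + s * mu n q) * (x q + x p) = _
        ring
      have g3 : v none = x 2 + c * x p := rfl
      rw [g1, g3]
      have h4 : s * N = s * eps p := by
        rw [hs]
        have h5 := sq_self' (eps p)
        have h6 := add_self' (eps p)
        have h7 := sq_self' N
        have h8 := add_self' N
        linear_combination h7 + h8 - h5 - h6
      have h2 := add_self' (c * x p * ∑ q : PF n, lam n q)
      rw [h4]
      linear_combination key + h2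
  have hx2 : x 2 + c * x p = 0 := congrFun hv none
  have hxq : ∀ q : PF n, x q + x p = 0 := fun q => congrFun hv (some q)
  constructor
  · intro r
    have := hxq r
    have h := add_self' (x p)
    linear_combination this - h
  · have h := add_self' (c * x p)
    linear_combination hx2 - h

end Vale.Agent.P017.R4.H538
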