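import Vale.Agent.P017.R4.H538.Red2
import Vale.Agent.P017.R4.Defs2
import Vale.Agent.P017.R3.H816.D1b

/-!
# P017, even discriminants, 3 inert and 5 split: the linear system of the second descent
-/

open Finset

namespace Vale.Agent.P017.R4.H538

open Vale.Agent.P017.R2.H985 (bit PF Pat sym Mat cork)
open Vale.Agent.P017.R2.H816
open Vale.Agent.P017.R3
open Vale.Agent.P017.R3.H985 (bit_dvd sum_pf ker_zero ext_mulVec)
open Vale.Agent.P017.R3.H816 (ker_zero_left ext_vecMul vecMul_Mat bit_dvd_right)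

/-- column sums -/
theorem col_sum {n : ℕ} (ho : Odd n) (r : PF n) :
    (∑ q : PF n, (bit ((r : ℕ) : ℤ) q + bit ((q : ℕ) : ℤ) r)) =
      mu n r * ((∑ q : PF n, mu n q) + 1) := by
  have hqp : ∀ q : PF n, (q : ℕ).Prime := fun q => Nat.prime_of_mem_primeFactors q.2
  have h1 : ∀ q : PF n, bit ((r : ℕ) : ℤ) q + bit ((q : ℕ) : ℤ) r =
      mu n r * mu n q + if r = q then mu n r else 0 := by
    intro q
    split_ifs with h
    · subst h
      rw [bit_self (hqp r), sq_self', add_self', add_self']
    · rw [add_zero]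
      exact H224.bit_rec (hqp r) (hqp q) (H224.pf_ne_two ho r) (H224.pf_ne_two ho q)
        (fun h' => h (Subtype.ext h'))
  rw [sum_congr rfl fun q _ => h1 q, sum_add_distrib, ← mul_sum, sum_ite_eq univ r,
    if_pos (mem_univ _)]
  ring

theorem core2 {n p : ℕ} (ho : Odd n) (hp : p.Prime) (hp2 : p ≠ 2)
    (hpn : ¬ p ∣ n) (c s : ZMod 2) (hs : s = (∑ q : PF n, mu n q) + eps p + 1) (y : ℕ → ZMod 2)
    (z : ZMod 2)
    (hE : ∀ q : PF n, (∑ r : PF n, y r * bit ((q : ℕ) : ℤ) r) + y p * bit ((q : ℕ) : ℤ) p +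
      y 3 * bit ((q : ℕ) : ℤ) 3 + z * (c * bit (2 : ℤ) q + s * mu n q) +
      y q * (c * bit (2 : ℤ) q + (∑ r : PF n, bit ((r : ℕ) : ℤ) q) + bit (p : ℤ) q) = 0)
    (h2 : (∑ r : PF n, y r * bit (2 : ℤ) r) + y p * bit (2 : ℤ) p + y 3 +
      z * ((∑ r : PF n, bit (2 : ℤ) r) + bit (2 : ℤ) p) = 0)
    (h5 : (∑ r : PF n, y r * bit ((r : ℕ) : ℤ) 5) + y p * bit (p : ℤ) 5 + y 3 + c * z = 0)
    (h5' : (∑ r : PF n, bit ((r : ℕ) : ℤ) 5) + bit (p : ℤ) 5 = c)
    (hc : ck (ext (ext (Mat n (sym n p) + Matrix.diagonal (c • lam n)) (lam n)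
      (c • lam n + s • mu n) ((∑ q : PF n, lam n q) + bit (2 : ℤ) p))
      (extv (fun q : PF n => bit ((q : ℕ) : ℤ) 5) c)
      (extv (fun q : PF n => bit ((q : ℕ) : ℤ) 3) 1) 1) = 0) :
    (∀ r : PF n, y r = y p) ∧ z = y p ∧ y 3 = 0 := by
  classical
  have hqp : ∀ q : PF n, (q : ℕ).Prime := fun q => Nat.prime_of_mem_primeFactors q.2
  have hqn : ∀ q : PF n, (q : ℕ) ∣ n := fun q => Nat.dvd_of_mem_primeFactors q.2
  have hrecp : ∀ q : PF n, bit ((q : ℕ) : ℤ) p + bit (p : ℤ) q = mu n q * eps p := fun q =>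
    H224.bit_rec (hqp q) hp (H224.pf_ne_two ho q) hp2 (fun h => hpn (h ▸ hqn q))
  let v : Option (Option (PF n)) → ZMod 2 := fun a => match a with
    | some (some q) => y q + y p
    | some none => z + y p
    | none => y 3
  have hv : v = 0 := by
    apply ker_zero_left _ hc
    have hext := ext_vecMul (ext (Mat n (sym n p) + Matrix.diagonal (c • lam n)) (lam n)
      (c • lam n + s • mu n) ((∑ q : PF n, lam n q) + bit (2 : ℤ) p))
      (extv (fun q : PF n => bit ((q : ℕ) : ℤ) 5) c)
      (extv (fun q : PF n => bit ((q : ℕ) : ℤ) 3) 1) 1 v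
    have hint := ext_vecMul (Mat n (sym n p) + Matrix.diagonal (c • lam n)) (lam n)
      (c • lam n + s • mu n) ((∑ q : PF n, lam n q) + bit (2 : ℤ) p) (fun a => v (some a))
    have w1 : ∀ q : PF n, v (some (some q)) = y q + y p := fun q => rfl
    have w2 : v (some none) = z + y p := rfl
    have w3 : v none = y 3 := rfl
    funext a
    rw [Pi.zero_apply]
    cases a with
    | some a =>
      rw [hext.1 a]
      cases a with
      | some q =>
        rw [hint.1 q, Matrix.vecMul_add, Pi.add_apply, vecMul_Mat, Matrix.vecMul_diagonal]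
        have g1 : (∑ r : PF n, v (some (some r)) * bit ((q : ℕ) : ℤ) r) =
            (∑ r : PF n, y r * bit ((q : ℕ) : ℤ) r) + y p * ∑ r : PF n, bit ((q : ℕ) : ℤ) r := by
          rw [mul_sum, ← sum_add_distrib]
          apply sum_congr rfl
          intro r _
          rw [w1]
          ring
        have g4 : sym n p q = bit (p : ℤ) q := rfl
        have g5 : (c • lam n) q = c * bit (2 : ℤ) q := rfl
        have g6 : (c • lam n + s • mu n) q = c * bit (2 : ℤ) q + s * mu n q := rfl
        have g7 : extv (fun q : PF n => bit ((q : ℕ) : ℤ) 3) 1 (some q) = bit ((q : ℕ) : ℤ) 3 := rfl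
        rw [g1, g4, g5, g6, g7, w1, w2, w3]
        have h0 := hE q
        have hcs := col_sum ho q
        rw [sum_add_distrib] at hcs
        have hr := hrecp q
        have k1 := add_self' (y p * (bit ((q : ℕ) : ℤ) p))
        have k2 := add_self' (y p * (c * bit (2 : ℤ) q))
        have k3 := add_self' (y p * (s * mu n q))
        rw [hs] at h0 k3 ⊢
        linear_combination h0 + y p * hcs + y p * hr + k2 + k3 - k1
      | none =>
        rw [hint.2]
        have g1 : (∑ r : PF n, v (some (some r)) * lam n r) =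
            (∑ r : PF n, y r * bit (2 : ℤ) r) + y p * ∑ r : PF n, bit (2 : ℤ) r := by
          rw [mul_sum, ← sum_add_distrib]
          apply sum_congr rfl
          intro r _
          rw [w1]
          show _ * bit (2 : ℤ) r = _
          ring
        have g2 : (∑ q : PF n, lam n q) = ∑ r : PF n, bit (2 : ℤ) r := rfl
        have g7 : extv (fun q : PF n => bit ((q : ℕ) : ℤ) 3) 1 none = 1 := rfl
        rw [g1, g2, g7, w2, w3]
        have k1 := add_self' (y p * ∑ r : PF n, bit (2 : ℤ) r)
        linear_combination h2 + k1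
    | none =>
      rw [hext.2, Fintype.sum_option]
      have g1 : (∑ r : PF n, v (some (some r)) *
          extv (fun q : PF n => bit ((q : ℕ) : ℤ) 5) c (some r)) =
          (∑ r : PF n, y r * bit ((r : ℕ) : ℤ) 5) + y p * ∑ r : PF n, bit ((r : ℕ) : ℤ) 5 := by
        rw [mul_sum, ← sum_add_distrib]
        apply sum_congr rfl
        intro r _
        rw [w1]
        show _ * bit ((r : ℕ) : ℤ) 5 = _
        ring
      have g7 : extv (fun q : PF n => bit ((q : ℕ) : ℤ) 5) c none = c := rfl
      rw [g1, g7, w2, w3]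
      have k1 := add_self' (y p * c)
      have k2 := add_self' (y p * bit (p : ℤ) 5)
      linear_combination h5 + y p * h5' + k1 - k2
  have hy3 : y 3 = 0 := congrFun hv none
  have hz : z + y p = 0 := congrFun hv (some none)
  have hyq : ∀ q : PF n, y q + y p = 0 := fun q => congrFun hv (some (some q))
  have h := add_self' (y p)
  refine ⟨fun r => ?_, ?_, hy3⟩
  · linear_combination hyq r - h
  · linear_combination hz - h

end Vale.Agent.P017.R4.H538
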