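import Vale.Agent.P017.R4.H538.E24lin
import Vale.Agent.P017.R4.H985.E24

/-!
# P017, even discriminants, 3 inert and 5 split: (E2), (E4)
-/

namespace Vale.Agent.P017.R4.H538

/-- (E2) -/
theorem stmtE2 : StmtE2 :=
  Vale.Agent.P017.R4.H985.stmtE2_of fun hn ho h3 h5 hp p5 hpn hok hκ hc hb hb2 hb5 hloc =>
    lin3 hn ho h3 h5 hp p5 hpn hok hκ hc hb hb2 hb5 hloc

/-- (E4) -/
theorem stmtE4 : StmtE4 :=
  Vale.Agent.P017.R4.H985.stmtE4_of fun hn ho h3 h5 hp p5 hpn hok h4 hc hb hb2 hb5 hloc =>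
    lin2 hn ho h3 h5 hp p5 hpn hok h4 hc hb hb2 hb5 hloc

end Vale.Agent.P017.R4.H538
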