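import Vale.Agent.P017.R4.H538.Core2

/-!
# P017, even discriminants, 3 inert and 5 split: second descent, from the local conditions to
`b = 1` or `b = -D`
-/

open Finset

namespace Vale.Agent.P017.R4.H538

open Vale.Agent.P017.R2.H985 (bit PF Pat sym Mat cork)
open Vale.Agent.P017.R2.H816
open Vale.Agent.P017.R3
open Vale.Agent.P017.R3.H985 (bit_dvd sum_pf)
open Vale.Agent.P017.R3.H816 (bit_dvd_right)

/-- sign -/
def sg (b : ℤ) : ZMod 2 := if b < 0 then 1 else 0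

theorem sum_pf4 {n p : ℕ} (hn : n ≠ 0) (hp : p.Prime) (hpn : ¬ p ∣ n) (h2n : ¬ 2 ∣ n)
    (h3n : ¬ 3 ∣ n) (hp2 : p ≠ 2) (hp3 : p ≠ 3) (f : ℕ → ZMod 2) :
    ∑ r ∈ (n * p * 2 * 3).primeFactors, f r = (∑ q : PF n, f q) + f p + f 2 + f 3 := by
  have h3 : Nat.Prime 3 := Nat.prime_three
  have h2 : Nat.Prime 2 := Nat.prime_two
  rw [Nat.primeFactors_mul (mul_ne_zero (mul_ne_zero hn hp.ne_zero) two_ne_zero) three_ne_zero,
    h3.primeFactors, sum_union, sum_singleton, sum_pf hn hp h2 hpn h2n hp2]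
  rw [disjoint_singleton_right]
  intro h
  rcases (Nat.Prime.dvd_mul h3).mp (Nat.dvd_of_mem_primeFactors h) with h | h
  · rcases (Nat.Prime.dvd_mul h3).mp h with h | h
    · exact h3n h
    · exact hp3 ((Nat.prime_dvd_prime_iff_eq h3 hp).mp h).symm
  · omega

theorem jac_ne_int {q : ℕ} (hq : q.Prime) {c : ℤ} (hc : ¬ (q : ℤ) ∣ c) : jacobiSym c q ≠ 0 := by
  have _ := NeZero.mk hq.ne_zero
  apply jacobiSym.ne_zero
  have h : ¬ q ∣ c.natAbs := fun h => hc (Int.natCast_dvd.mpr h)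
  exact ((Nat.Prime.coprime_iff_not_dvd hq).mpr h).symm

theorem bit_neg_one {q : ℕ} (hq : Odd q) : bit (-1) q = eps q := by
  unfold bit eps
  rw [jacobiSym.at_neg_one hq]
  rcases H224.mod4_of_odd hq with h | h
  · rw [ZMod.χ₄_nat_one_mod_four h, if_neg (by norm_num), if_neg (by omega)]
  · rw [ZMod.χ₄_nat_three_mod_four h, if_pos rfl, if_pos h]

theorem bit_sg {b : ℤ} {q : ℕ} (hq : q.Prime) (hqo : Odd q) (hb : ¬ (q : ℤ) ∣ b) :
    bit b q = sg b * eps q + bit (b.natAbs : ℤ) q := by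
  unfold sg
  split_ifs with h
  · have h1 : b = -1 * (b.natAbs : ℤ) := by omega
    have h2 : ¬ (q : ℤ) ∣ (b.natAbs : ℤ) := by
      intro h3
      apply hb
      rw [h1]
      exact h3.mul_left _
    have h3 : ¬ (q : ℤ) ∣ (-1 : ℤ) := by
      intro h3
      rw [Int.dvd_neg] at h3
      exact hq.one_lt.ne' (by exact_mod_cast Int.eq_one_of_dvd_one (by positivity) h3)
    have h4 := bit_mul (jac_ne_int hq h3) (jac_ne_int hq h2)
    rw [← h1, bit_neg_one hqo] at h4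
    rw [h4, one_mul]
  · have h1 : b = (b.natAbs : ℤ) := by omega
    rw [zero_mul, zero_add, ← h1]

/-- the Hilbert symbol at `q` -/
theorem locq {D₁ D q δ : ℕ} {b : ℤ} (hD₁ : Squarefree D₁) (hB : b.natAbs ∣ D₁) (hD : D ∣ D₁)
    (hq : q.Prime) (hqo : Odd q) (hδ : D = q * δ) (h1 : ¬ (q : ℤ) ∣ b → IsSquare (b : ZMod q))
    (h2 : ∀ β : ℤ, b = q * β → IsSquare ((-(δ * β) : ℤ) : ZMod q)) :
    sg b * eps q +
      (∑ r ∈ D₁.primeFactors, (if r ∣ b.natAbs then 1 else 0) * bit (r : ℤ) q) +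
      (if q ∣ b.natAbs then 1 else 0) *
        (eps q + ∑ r ∈ D₁.primeFactors, (if r ∣ D then bit (r : ℤ) q else 0)) = 0 := by
  have e0 : (∑ r ∈ D₁.primeFactors, (if r ∣ b.natAbs then 1 else 0) * bit (r : ℤ) q) =
      ∑ r ∈ D₁.primeFactors, if r ∣ b.natAbs then bit (r : ℤ) q else 0 := by
    apply sum_congr rfl
    intro r _
    split_ifs <;> simp
  rw [e0]
  by_cases hqb : (q : ℤ) ∣ b
  · obtain ⟨β, hβ⟩ := hqb
    have hBβ : b.natAbs = q * β.natAbs := by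
      rw [hβ, Int.natAbs_mul, Int.natAbs_natCast]
    have g1 := (bit_dvd hD₁ hB hq).2 _ hBβ
    have g2 := (bit_dvd hD₁ hD hq).2 δ hδ
    have g3 := bit_of_isSquare (h2 β hβ)
    have hqβ : ¬ q ∣ β.natAbs := by
      intro h
      have : q * q ∣ D₁ := (Nat.mul_dvd_mul_left q h).trans (hBβ ▸ hB)
      exact hq.one_lt.ne' (Nat.isUnit_iff.mp (hD₁ q this))
    have hqδ : ¬ q ∣ δ := by
      intro h
      have : q * q ∣ D₁ := (Nat.mul_dvd_mul_left q h).trans (hδ ▸ hD)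
      exact hq.one_lt.ne' (Nat.isUnit_iff.mp (hD₁ q this))
    have j1 : ¬ (q : ℤ) ∣ β := fun h => hqβ (Int.natCast_dvd.mp h)
    have j2 : ¬ (q : ℤ) ∣ (δ : ℤ) := fun h => hqδ (by exact_mod_cast h)
    have j3 : ¬ (q : ℤ) ∣ (δ : ℤ) * β := by
      intro h
      rcases (Nat.prime_iff_prime_int.mp hq).dvd_or_dvd h with h | h
      · exact j2 h
      · exact j1 h
    have j4 : ¬ (q : ℤ) ∣ (-1 : ℤ) := by
      intro h3
      rw [Int.dvd_neg] at h3
      exact hq.one_lt.ne' (by exact_mod_cast Int.eq_one_of_dvd_one (by positivity) h3)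
    have hsg : sg β = sg b := by
      unfold sg
      have hq0 : (0 : ℤ) < q := by exact_mod_cast hq.pos
      by_cases h : β < 0
      · rw [if_pos h, if_pos (by rw [hβ]; exact mul_neg_of_pos_of_neg hq0 h)]
      · rw [if_neg h, if_neg (by rw [hβ]; exact not_lt.mpr (mul_nonneg hq0.le (not_lt.mp h)))]
    rw [show (-((δ : ℤ) * β)) = -1 * ((δ : ℤ) * β) by ring,
      bit_mul (jac_ne_int hq j4) (jac_ne_int hq j3), bit_mul (jac_ne_int hq j2) (jac_ne_int hq j1),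
      bit_neg_one hqo, bit_sg hq hqo j1, g1, g2, hsg] at g3
    rw [if_pos ⟨_, hBβ⟩]
    linear_combination g3
  · have hqB : ¬ q ∣ b.natAbs := fun h => hqb (Int.natCast_dvd.mpr h)
    have g1 := (bit_dvd hD₁ hB hq).1 hqB
    have g3 := bit_of_isSquare (h1 hqb)
    rw [bit_sg hq hqo hqb, g1] at g3
    rw [if_neg hqB, zero_mul, add_zero, g3]

theorem eps_dvd {D B : ℕ} (hD : Squarefree D) (hDo : Odd D) (hB : B ∣ D) :
    eps B = ∑ r ∈ D.primeFactors, if r ∣ B then eps r else 0 := by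
  have hB0 : B ≠ 0 := by rintro rfl; exact hD.ne_zero (zero_dvd_iff.mp hB)
  have h1 := eps_prod B.primeFactors fun q hq => by
    obtain ⟨c, hc⟩ := (Nat.dvd_of_mem_primeFactors hq).trans hB
    rw [hc, Nat.odd_mul] at hDo
    exact hDo.1
  rw [Nat.prod_primeFactors_of_squarefree (hD.squarefree_of_dvd hB)] at h1
  rw [h1.2, ← sum_filter]
  apply sum_congr _ fun _ _ => rfl
  ext q
  rw [mem_filter, Nat.mem_primeFactors, Nat.mem_primeFactors]
  exact ⟨fun h => ⟨⟨h.1, h.2.1.trans hB, hD.ne_zero⟩, h.2.1⟩, fun h => ⟨h.1.1, h.2, hB0⟩⟩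

theorem sg_eps {b : ℤ} (hb : Odd b.natAbs) :
    sg b + eps b.natAbs = if b % 4 = 3 then 1 else 0 := by
  have h := H224.mod4_of_odd hb
  unfold sg eps
  rcases lt_or_ge b 0 with h0 | h0
  · rw [if_pos h0]
    rcases h with h | h
    · rw [if_neg (by omega), if_pos (by omega), add_zero]
    · rw [if_pos (by omega), if_neg (by omega)]
      decide
  · rw [if_neg (by omega), zero_add]
    rcases h with h | h
    · rw [if_neg (by omega), if_neg (by omega)]
    · rw [if_pos (by omega), if_pos (by omega)]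

theorem bit_two {B : ℕ} (hB : Odd B) :
    bit (2 : ℤ) B = if B % 8 = 3 ∨ B % 8 = 5 then 1 else 0 := by
  unfold bit
  have h : B % 2 = 1 := Nat.odd_iff.mp hB
  have h0 : ¬ B % 2 = 0 := by omega
  rw [jacobiSym.at_two hB, ZMod.χ₈_nat_eq_if_mod_eight, if_neg h0]
  by_cases h1 : B % 8 = 1 ∨ B % 8 = 7
  · rw [if_pos h1, if_neg (by norm_num), if_neg (by omega)]
  · rw [if_neg h1, if_pos rfl, if_pos (by omega)]

/-- the linear half -/
theorem lin {n p D : ℕ} {b b' : ℤ} {c s z : ZMod 2} (hn : Squarefree n) (ho : Odd n) (h3 : ¬ 3 ∣ n)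
    (h5 : ¬ 5 ∣ n) (hp : p.Prime) (p5 : 5 < p) (hpn : ¬ p ∣ n)
    (hs : s = (∑ q : PF n, mu n q) + eps p + 1)
    (hD : (D = n * p ∧ c = 0) ∨ (D = n * p * 2 ∧ c = 1))
    (hbb : (b = b' ∧ c * z = 0) ∨ (b = 2 * b' ∧ c * z = 1))
    (hb : b'.natAbs ∣ n * p * 3)
    (hT : (if b' % 4 = 3 then 1 else 0) = z * s)
    (h2 : bit (2 : ℤ) b'.natAbs = z * bit (2 : ℤ) (n * p))
    (hb5 : IsSquare (b : ZMod 5)) (hd5 : IsSquare (D : ZMod 5))
    (hloc : ∀ q δ : ℕ, q.Prime → q ∣ n → D = q * δ → (¬ (q : ℤ) ∣ b → IsSquare (b : ZMod q)) ∧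
      (∀ β : ℤ, b = q * β → IsSquare ((-(δ * β) : ℤ) : ZMod q)))
    (hc : ck (ext (ext (Mat n (sym n p) + Matrix.diagonal (c • lam n)) (lam n)
      (c • lam n + s • mu n) ((∑ q : PF n, lam n q) + bit (2 : ℤ) p))
      (extv (fun q : PF n => bit ((q : ℕ) : ℤ) 5) c)
      (extv (fun q : PF n => bit ((q : ℕ) : ℤ) 3) 1) 1) = 0) :
    (b' = 1 ∧ z = 0) ∨ (b' = -((n * p : ℕ) : ℤ) ∧ z = 1) := by
  classical
  have hn0 := hn.ne_zero
  have hp3 : p ≠ 3 := by omega
  have hp2 : p ≠ 2 := by omega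
  have h2p : Nat.Prime 2 := Nat.prime_two
  have h3p : Nat.Prime 3 := Nat.prime_three
  have h5p : Nat.Prime 5 := Nat.prime_five
  have hpo : Odd p := hp.odd_of_ne_two hp2
  have h2n : ¬ 2 ∣ n := fun h => (Nat.not_even_iff_odd.mpr ho) (even_iff_two_dvd.mpr h)
  have hcop : Nat.Coprime n p := ((Nat.Prime.coprime_iff_not_dvd hp).mpr hpn).symm
  have hd : Squarefree (n * p) := (Nat.squarefree_mul hcop).mpr ⟨hn, hp.squarefree⟩
  have hdo : Odd (n * p) := ho.mul hpo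
  have h3d : ¬ 3 ∣ n * p := by
    intro h
    rcases (Nat.Prime.dvd_mul h3p).mp h with h | h
    · exact h3 h
    · exact hp3 ((Nat.prime_dvd_prime_iff_eq h3p hp).mp h).symm
  have h5d : ¬ 5 ∣ n * p := by
    intro h
    rcases (Nat.Prime.dvd_mul h5p).mp h with h | h
    · exact h5 h
    · have := (Nat.prime_dvd_prime_iff_eq h5p hp).mp h
      omega
  have hD3 : Squarefree (n * p * 3) :=
    (Nat.squarefree_mul ((Nat.Prime.coprime_iff_not_dvd h3p).mpr h3d).symm).mpr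
      ⟨hd, h3p.squarefree⟩
  have hD3o : Odd (n * p * 3) := hdo.mul (by decide)
  have h2D3 : ¬ 2 ∣ n * p * 3 := fun h =>
    (Nat.not_even_iff_odd.mpr hD3o) (even_iff_two_dvd.mpr h)
  have hD1e : n * p * 2 * 3 = n * p * 3 * 2 := by ring
  have hD1 : Squarefree (n * p * 2 * 3) := by
    rw [hD1e]
    exact (Nat.squarefree_mul ((Nat.Prime.coprime_iff_not_dvd h2p).mpr h2D3).symm).mpr
      ⟨hD3, h2p.squarefree⟩
  have hqp : ∀ q : PF n, (q : ℕ).Prime := fun q => Nat.prime_of_mem_primeFactors q.2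
  have hqn : ∀ q : PF n, (q : ℕ) ∣ n := fun q => Nat.dvd_of_mem_primeFactors q.2
  have hq2 : ∀ q : PF n, (q : ℕ) ≠ 2 := H224.pf_ne_two ho
  have hqo : ∀ q : PF n, Odd (q : ℕ) := fun q => (hqp q).odd_of_ne_two (hq2 q)
  have hqpne : ∀ q : PF n, (q : ℕ) ≠ p := fun q h => hpn (h ▸ hqn q)
  have hq3 : ∀ q : PF n, (q : ℕ) ≠ 3 := fun q h => h3 (h ▸ hqn q)
  have hsum3 : ∀ f : ℕ → ZMod 2, ∑ r ∈ (n * p * 3).primeFactors, f r =
      (∑ q : PF n, f q) + f p + f 3 := fun f => sum_pf hn0 hp h3p hpn h3 hp3 f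
  have hsum4 : ∀ f : ℕ → ZMod 2, ∑ r ∈ (n * p * 2 * 3).primeFactors, f r =
      (∑ q : PF n, f q) + f p + f 2 + f 3 := fun f => sum_pf4 hn0 hp hpn h2n h3 hp2 hp3 f
  obtain ⟨B, hB⟩ : ∃ B, B = b'.natAbs := ⟨_, rfl⟩
  rw [← hB] at hb h2
  have hBo : Odd B := Odd.of_dvd_nat hD3o hb
  let y : ℕ → ZMod 2 := fun r => if r ∣ B then 1 else 0
  have hyf : ∀ (r : ℕ) (t : ZMod 2), (if r ∣ B then t else 0) = y r * t := by
    intro r t
    simp only [y]
    split_ifs <;> simp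
  -- `b` and `b'`
  have hbB : b.natAbs ∣ n * p * 2 * 3 := by
    rw [hD1e]
    rcases hbb with ⟨h, -⟩ | ⟨h, -⟩
    · rw [h, ← hB]; exact hb.mul_right 2
    · rw [h, Int.natAbs_mul, ← hB, Nat.mul_comm]
      exact Nat.mul_dvd_mul hb (dvd_refl 2)
  have hyb : ∀ r : ℕ, r.Prime → r ≠ 2 → (if r ∣ b.natAbs then (1 : ZMod 2) else 0) = y r := by
    intro r hr hr2
    rcases hbb with ⟨h, -⟩ | ⟨h, -⟩
    · rw [h, ← hB]
    · have : r ∣ b.natAbs ↔ r ∣ B := by
        rw [h, Int.natAbs_mul, ← hB]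
        constructor
        · intro h'
          rcases (Nat.Prime.dvd_mul hr).mp h' with h' | h'
          · exact absurd ((Nat.prime_dvd_prime_iff_eq hr h2p).mp h') hr2
          · exact h'
        · intro h'; exact h'.mul_left _
      simp only [y, this]
  have hyb2 : (if 2 ∣ b.natAbs then (1 : ZMod 2) else 0) = c * z := by
    have hB2 : ¬ 2 ∣ B := fun h => (Nat.not_even_iff_odd.mpr hBo) (even_iff_two_dvd.mpr h)
    rcases hbb with ⟨h, h'⟩ | ⟨h, h'⟩
    · rw [h, ← hB, if_neg hB2, h']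
    · rw [h, Int.natAbs_mul, ← hB, if_pos (show 2 ∣ Int.natAbs 2 * B from Dvd.intro _ rfl), h']
  have hsgb : sg b = sg b' := by
    rcases hbb with ⟨h, -⟩ | ⟨h, -⟩
    · rw [h]
    · rw [h]
      unfold sg
      by_cases h' : b' < 0
      · rw [if_pos h', if_pos (by omega)]
      · rw [if_neg h', if_neg (by omega)]
  have hDD : D ∣ n * p * 2 * 3 := by
    rcases hD with ⟨h, -⟩ | ⟨h, -⟩
    · rw [h]; exact (dvd_mul_right (n * p) 2).mul_right 3
    · rw [h]; exact dvd_mul_right _ 3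
  have hDsum : ∀ q : ℕ, (∑ r ∈ (n * p * 2 * 3).primeFactors, if r ∣ D then bit (r : ℤ) q else 0) =
      (∑ r : PF n, bit ((r : ℕ) : ℤ) q) + bit (p : ℤ) q + c * bit (2 : ℤ) q := by
    intro q
    have i1 : ∀ r : PF n, (r : ℕ) ∣ D := by
      intro r
      rcases hD with ⟨h, -⟩ | ⟨h, -⟩
      · rw [h]; exact (hqn r).mul_right p
      · rw [h]; exact ((hqn r).mul_right p).mul_right 2
    have i2 : p ∣ D := by
      rcases hD with ⟨h, -⟩ | ⟨h, -⟩
      · rw [h]; exact dvd_mul_left p n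
      · rw [h]; exact (dvd_mul_left p n).mul_right 2
    have i3 : ¬ 3 ∣ D := by
      rcases hD with ⟨h, -⟩ | ⟨h, -⟩
      · rw [h]; exact h3d
      · rw [h]
        intro h'
        rcases (Nat.Prime.dvd_mul h3p).mp h' with h' | h'
        · exact h3d h'
        · omega
    have i4 : (if 2 ∣ D then bit ((2 : ℕ) : ℤ) q else 0) = c * bit (2 : ℤ) q := by
      rcases hD with ⟨h, h'⟩ | ⟨h, h'⟩
      · rw [h, h', if_neg fun h'' => (Nat.not_even_iff_odd.mpr hdo) (even_iff_two_dvd.mpr h''),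
          zero_mul]
      · rw [h, h', if_pos (Dvd.intro_left _ rfl), one_mul]
        rfl
    rw [hsum4, if_pos i2, if_neg i3, i4, add_zero]
    congr 2
    apply sum_congr rfl
    intro r _
    rw [if_pos (i1 r)]
  -- the class of `b'` modulo 4
  have hTsum : sg b' + ((∑ r : PF n, y r * mu n r) + y p * eps p + y 3) = z * s := by
    have e1 := sg_eps (b := b') (by rw [← hB]; exact hBo)
    rw [hT, ← hB, eps_dvd hD3 hD3o hb, hsum3, hyf p, hyf 3] at e1
    have e3 : eps 3 = 1 := by decide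
    rw [sum_congr rfl fun (r : PF n) _ => hyf r (eps r), e3, mul_one] at e1
    exact e1
  have hE : ∀ q : PF n, (∑ r : PF n, y r * bit ((q : ℕ) : ℤ) r) + y p * bit ((q : ℕ) : ℤ) p +
      y 3 * bit ((q : ℕ) : ℤ) 3 + z * (c * bit (2 : ℤ) q + s * mu n q) +
      y q * (c * bit (2 : ℤ) q + (∑ r : PF n, bit ((r : ℕ) : ℤ) q) + bit (p : ℤ) q) = 0 := by
    intro q
    have hqD : (q : ℕ) ∣ D := by
      rcases hD with ⟨h, -⟩ | ⟨h, -⟩
      · rw [h]; exact (hqn q).mul_right p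
      · rw [h]; exact ((hqn q).mul_right p).mul_right 2
    obtain ⟨δ, hδ⟩ := hqD
    have hl := hloc q δ (hqp q) (hqn q) hδ
    have h := locq hD1 hbB hDD (hqp q) (hqo q) hδ hl.1 hl.2
    rw [hDsum, hsum4, hsgb, hyb q (hqp q) (hq2 q), hyb p hp hp2, hyb2, hyb 3 h3p (by norm_num),
      sum_congr rfl fun (r : PF n) _ => by rw [hyb r (hqp r) (hq2 r)]] at h
    -- reciprocity
    have hmu : eps (q : ℕ) = mu n q := rfl
    have r1 : (∑ r : PF n, y r * bit ((r : ℕ) : ℤ) q) + y q * mu n q =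
        (∑ r : PF n, y r * bit ((q : ℕ) : ℤ) r) + mu n q * ∑ r : PF n, y r * mu n r := by
      have r2 : ∀ r : PF n, y r * bit ((r : ℕ) : ℤ) q + (if q = r then y r * mu n q else 0) =
          y r * bit ((q : ℕ) : ℤ) r + mu n q * (y r * mu n r) := by
        intro r
        split_ifs with hqr
        · subst hqr
          have k := sq_self' (mu n q)
          linear_combination -y q * k
        · rw [add_zero]
          have k := H224.bit_rec (hqp r) (hqp q) (hq2 r) (hq2 q)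
            (fun h' => hqr (Subtype.ext h').symm)
          have k' : bit ((r : ℕ) : ℤ) q + bit ((q : ℕ) : ℤ) r = mu n r * mu n q := k
          have k2 := add_self' (y r * bit ((q : ℕ) : ℤ) r)
          linear_combination y r * k' - k2
      have r3 : (∑ r : PF n, if q = r then y r * mu n q else 0) = y q * mu n q := by
        rw [sum_ite_eq univ q, if_pos (mem_univ _)]
      rw [← r3, ← sum_add_distrib, mul_sum, ← sum_add_distrib]
      exact sum_congr rfl fun r _ => r2 r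
    have r4 : bit ((q : ℕ) : ℤ) p + bit (p : ℤ) q = mu n q * eps p :=
      H224.bit_rec (hqp q) hp (hq2 q) hp2 (hqpne q)
    have r5 : bit ((q : ℕ) : ℤ) 3 + bit ((3 : ℕ) : ℤ) q = mu n q := by
      have k := H224.bit_rec (hqp q) h3p (hq2 q) (by norm_num) (hq3 q)
      rw [if_pos (by norm_num : 3 % 4 = 3), mul_one] at k
      exact k
    have e2 : bit ((2 : ℕ) : ℤ) (q : ℕ) = bit (2 : ℤ) q := rfl
    rw [hmu, e2] at h
    have k1 := add_self' (y p * mu n q * eps p)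
    have k2 := add_self' (y 3 * mu n q)
    have k3 := add_self' (y p * bit (p : ℤ) q)
    have k4 := add_self' (y 3 * bit ((3 : ℕ) : ℤ) q)
    linear_combination h - r1 + y p * r4 + y 3 * r5 - mu n q * hTsum + k1 + k2 - k3 - k4
  have hcore2 : (∑ r : PF n, y r * bit (2 : ℤ) r) + y p * bit (2 : ℤ) p + y 3 +
      z * ((∑ r : PF n, bit (2 : ℤ) r) + bit (2 : ℤ) p) = 0 := by
    have hB2 : ¬ 2 ∣ B := fun h => (Nat.not_even_iff_odd.mpr hBo) (even_iff_two_dvd.mpr h)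
    have hd2 : ¬ 2 ∣ n * p := fun h => (Nat.not_even_iff_odd.mpr hdo) (even_iff_two_dvd.mpr h)
    have g1 := (bit_dvd_right hD3 hb h2p hB2).2
    have g2 := (bit_dvd_right hD3 (dvd_mul_right (n * p) 3) h2p hd2).2
    rw [hsum3, hyf p, hyf 3, sum_congr rfl fun (r : PF n) _ => hyf r _] at g1
    rw [hsum3, if_pos (dvd_mul_left p n), if_neg h3d, add_zero,
      sum_congr rfl fun (r : PF n) _ => if_pos ((hqn r).mul_right p)] at g2
    have e1 : bit ((2 : ℕ) : ℤ) 3 = 1 := by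
      unfold bit
      rw [if_pos (by norm_num)]
    have e2 : ∀ r : ℕ, bit ((2 : ℕ) : ℤ) r = bit (2 : ℤ) r := fun r => rfl
    rw [e1, mul_one] at g1
    simp only [e2] at g1 g2
    have k := add_self' (bit (2 : ℤ) B)
    rw [← g2, ← g1]
    linear_combination k - h2
  have hB5 : ¬ 5 ∣ n * p * 3 := by
    intro h
    rcases (Nat.Prime.dvd_mul h5p).mp h with h | h
    · exact h5d h
    · omega
  have hB5' : ¬ 5 ∣ B := fun h => hB5 (h.trans hb)
  have e5 : eps 5 = 0 := by decide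
  have e25 : bit (2 : ℤ) 5 = 1 := by
    unfold bit
    rw [if_pos (by norm_num)]
  have e35 : bit ((3 : ℕ) : ℤ) 5 = 1 := by
    unfold bit
    rw [if_pos (by norm_num)]
  have h5b' : ¬ ((5 : ℕ) : ℤ) ∣ b' := fun h => hB5' (by rw [hB]; exact Int.natCast_dvd.mp h)
  have h52 : ¬ ((5 : ℕ) : ℤ) ∣ 2 := by norm_num
  have h5dz : ¬ ((5 : ℕ) : ℤ) ∣ ((n * p : ℕ) : ℤ) := fun h => h5d (Int.natCast_dvd_natCast.mp h)
  have hcore5 : (∑ r : PF n, y r * bit ((r : ℕ) : ℤ) 5) + y p * bit (p : ℤ) 5 + y 3 + c * z =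
      0 := by
    have g0 := bit_of_isSquare (q := 5) hb5
    have g1 : bit b' 5 + c * z = 0 := by
      rcases hbb with ⟨h, h'⟩ | ⟨h, h'⟩
      · rw [h', add_zero, ← h, g0]
      · rw [h, bit_mul (jac_ne_int h5p h52) (jac_ne_int h5p h5b'), e25] at g0
        rw [h', add_comm, g0]
    rw [bit_sg h5p (by decide) h5b', e5, mul_zero, zero_add, ← hB,
      (bit_dvd hD3 hb h5p).1 hB5', hsum3, hyf p, hyf 3,
      sum_congr rfl fun (r : PF n) _ => hyf r _, e35, mul_one] at g1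
    exact g1
  have hcore5' : (∑ r : PF n, bit ((r : ℕ) : ℤ) 5) + bit (p : ℤ) 5 = c := by
    have g0 := bit_of_isSquare (a := (D : ℤ)) (q := 5) (by exact_mod_cast hd5)
    have g1 : bit ((n * p : ℕ) : ℤ) 5 + c = 0 := by
      rcases hD with ⟨h, h'⟩ | ⟨h, h'⟩
      · rw [h', add_zero, ← h, g0]
      · rw [h, Nat.cast_mul, bit_mul (jac_ne_int h5p h5dz) (jac_ne_int h5p (by norm_num))] at g0
        have e26 : bit ((2 : ℕ) : ℤ) 5 = 1 := e25
        rw [e26] at g0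
        rw [h', g0]
    rw [(bit_dvd hD3 (dvd_mul_right (n * p) 3) h5p).1 h5d, hsum3, if_pos (dvd_mul_left p n),
      if_neg h3d, add_zero,
      sum_congr rfl fun (r : PF n) _ => if_pos ((hqn r).mul_right p)] at g1
    have k := add_self' c
    linear_combination g1 - k
  obtain ⟨f1, f2, f3⟩ := core2 ho hp hp2 hpn c s hs y z hE hcore2 hcore5 hcore5' hc
  have h3B : ¬ 3 ∣ B := by
    intro h
    have : y 3 = 1 := if_pos h
    rw [f3] at this
    exact zero_ne_one this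
  have hBd : B ∣ n * p := by
    apply Nat.Coprime.dvd_of_dvd_mul_right _ hb
    exact ((Nat.Prime.coprime_iff_not_dvd h3p).mpr h3B).symm
  have hall : ∀ r ∈ (n * p).primeFactors, y r = y p := by
    intro r hr
    have hr1 := Nat.prime_of_mem_primeFactors hr
    rcases (Nat.Prime.dvd_mul hr1).mp (Nat.dvd_of_mem_primeFactors hr) with h | h
    · exact f1 ⟨r, Nat.mem_primeFactors.mpr ⟨hr1, h, hn0⟩⟩
    · rw [(Nat.prime_dvd_prime_iff_eq hr1 hp).mp h]
  have hs4 : ((n * p) % 4 = 1 ∧ s = 1) ∨ ((n * p) % 4 = 3 ∧ s = 0) := by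
    rw [← eps_n hn ho, ← eps_mul ho hpo] at hs
    unfold eps at hs
    rcases H224.mod4_of_odd hdo with h | h
    · left
      rw [h] at hs
      exact ⟨h, by rw [hs]; decide⟩
    · right
      rw [h] at hs
      exact ⟨h, by rw [hs]; decide⟩
  by_cases hpB : p ∣ B
  · right
    have hyp : y p = 1 := if_pos hpB
    have hz : z = 1 := by rw [f2, hyp]
    refine ⟨?_, hz⟩
    have hBe : B = n * p := by
      refine eq_of_all hd hBd fun r hr => ?_
      by_contra hcon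
      have h2 : y r = 0 := if_neg hcon
      rw [hall r hr, hyp] at h2
      exact one_ne_zero h2
    rw [hz, one_mul] at hT
    rcases Int.natAbs_eq b' with h | h
    · exfalso
      rw [← hB, hBe] at h
      rcases hs4 with ⟨h', hs'⟩ | ⟨h', hs'⟩
      · rw [hs', if_neg (by omega)] at hT
        exact zero_ne_one hT
      · rw [hs', if_pos (by omega)] at hT
        exact one_ne_zero hT
    · rw [← hB, hBe] at h
      exact h
  · left
    have hyp : y p = 0 := if_neg hpB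
    have hz : z = 0 := by rw [f2, hyp]
    refine ⟨?_, hz⟩
    have hBe : B = 1 := by
      refine eq_one_of_none hd hBd fun r hr hcon => ?_
      have h2 : y r = 1 := if_pos hcon
      rw [hall r hr, hyp] at h2
      exact zero_ne_one h2
    rw [hz, zero_mul] at hT
    rcases Int.natAbs_eq b' with h | h
    · rw [← hB, hBe] at h
      exact h
    · exfalso
      rw [← hB, hBe] at h
      rw [h, if_pos (by decide)] at hT
      exact one_ne_zero hT

theorem MM3s_eq (κ : ZMod 2) (n : ℕ) (w : Pat n) (ρ : ZMod 2) : MM3s κ n w ρ =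
    ext (ext (Mat n w + Matrix.diagonal ((1 : ZMod 2) • lam n)) (lam n)
      ((1 : ZMod 2) • lam n + κ • mu n) ((∑ q : PF n, lam n q) + ρ))
      (extv (fun q : PF n => bit ((q : ℕ) : ℤ) 5) 1)
      (extv (fun q : PF n => bit ((q : ℕ) : ℤ) 3) 1) 1 := by
  unfold MM3s
  rw [MM3_eq]

theorem MM2s_eq (n : ℕ) (w : Pat n) (ρ : ZMod 2) : MM2s n w ρ =
    ext (ext (Mat n w + Matrix.diagonal ((0 : ZMod 2) • lam n)) (lam n)
      ((0 : ZMod 2) • lam n + (1 : ZMod 2) • mu n) ((∑ q : PF n, lam n q) + ρ))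
      (extv (fun q : PF n => bit ((q : ℕ) : ℤ) 5) 0)
      (extv (fun q : PF n => bit ((q : ℕ) : ℤ) 3) 1) 1 := by
  unfold MM2s
  rw [MM2_eq]

theorem sq5 {d : ℕ} (h : d % 5 = 1 ∨ d % 5 = 4) : IsSquare ((d : ℕ) : ZMod 5) := by
  have h1 : ((d : ℕ) : ZMod 5) = ((d % 5 : ℕ) : ZMod 5) := by simp
  rw [h1]
  rcases h with h | h
  · rw [h]; exact ⟨1, by decide⟩
  · rw [h]; exact ⟨2, by decide⟩

/-- (E4), linear half -/
theorem lin2 {n p : ℕ} {b : ℤ} (hn : Squarefree n) (ho : Odd n) (h3 : ¬ 3 ∣ n) (h5 : ¬ 5 ∣ n)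
    (hp : p.Prime) (p5 : 5 < p) (hpn : ¬ p ∣ n) (hok : OK2 (n * p)) (h4 : (n * p) % 4 = 1)
    (hc : ck (MM2s n (sym n p) (bit 2 p)) = 0) (hb : b.natAbs ∣ n * p * 3)
    (hb2 : b % 8 = 1 ∨ (b + ((n * p : ℕ) : ℤ)) % 8 = 0) (hb5 : IsSquare (b : ZMod 5))
    (hloc : ∀ q δ : ℕ, q.Prime → q ∣ n → n * p = q * δ → (¬ (q : ℤ) ∣ b → IsSquare (b : ZMod q)) ∧
      (∀ β : ℤ, b = q * β → IsSquare ((-(δ * β) : ℤ) : ZMod q))) :
    b = 1 ∨ b = -((n * p : ℕ) : ℤ) := by
  have hp2 : p ≠ 2 := by omega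
  have hs : (1 : ZMod 2) = (∑ q : PF n, mu n q) + eps p + 1 :=
    kappa hn ho hp hp2 ⟨fun _ => rfl, fun _ => h4⟩
  have hbo : Odd b.natAbs := Odd.of_dvd_nat ((ho.mul (hp.odd_of_ne_two hp2)).mul (by decide)) hb
  have hdo : Odd (n * p) := ho.mul (hp.odd_of_ne_two hp2)
  have h := lin (D := n * p) (b := b) (b' := b) (c := 0) (s := 1)
    (z := if b % 4 = 3 then 1 else 0) hn ho h3 h5 hp p5 hpn hs
    (Or.inl ⟨rfl, rfl⟩) (Or.inl ⟨rfl, zero_mul _⟩) hb (mul_one _).symm ?_ hb5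
    (sq5 hok.2) hloc (by rw [← MM2s_eq]; exact hc)
  · rcases h with h | h
    · exact Or.inl h.1
    · exact Or.inr h.1
  · have e1 := bit_two hbo
    have e2 := bit_two hdo
    have e3 : bit (2 : ℤ) (n * p) = if (n * p) % 8 = 3 ∨ (n * p) % 8 = 5 then 1 else 0 := e2
    rw [e1, e3]
    rcases hb2 with hb2 | hb2
    · rw [if_neg (by omega), if_neg (by omega), zero_mul]
    · rw [if_pos (c := b % 4 = 3) (by omega), one_mul]
      by_cases h' : (n * p) % 8 = 3 ∨ (n * p) % 8 = 5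
      · rw [if_pos h', if_pos (by omega)]
      · rw [if_neg h', if_neg (by omega)]

/-- (E2), linear half -/
theorem lin3 {κ : ZMod 2} {n p : ℕ} {b : ℤ} (hn : Squarefree n) (ho : Odd n) (h3 : ¬ 3 ∣ n)
    (h5 : ¬ 5 ∣ n) (hp : p.Prime) (p5 : 5 < p) (hpn : ¬ p ∣ n) (hok : OK2 (2 * (n * p)))
    (hκ : (n * p) % 4 = 1 ↔ κ = 1)
    (hc : ck (MM3s κ n (sym n p) (bit 2 p)) = 0) (hb : b.natAbs ∣ n * p * 2 * 3)
    (hb2 : b % 8 = 1 ∨ ∃ b' : ℤ, b = 2 * b' ∧ (b' + ((n * p : ℕ) : ℤ)) % 8 = 0)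
    (hb5 : IsSquare (b : ZMod 5))
    (hloc : ∀ q δ : ℕ, q.Prime → q ∣ n → 2 * (n * p) = q * δ →
      (¬ (q : ℤ) ∣ b → IsSquare (b : ZMod q)) ∧
      (∀ β : ℤ, b = q * β → IsSquare ((-(δ * β) : ℤ) : ZMod q))) :
    b = 1 ∨ b = -((2 * (n * p) : ℕ) : ℤ) := by
  have hp2 : p ≠ 2 := by omega
  have hs := kappa hn ho hp hp2 hκ
  have hdo : Odd (n * p) := ho.mul (hp.odd_of_ne_two hp2)
  have hdo2 := Nat.odd_iff.mp hdo
  have hD3o : Odd (n * p * 3) := hdo.mul (by decide)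
  rw [Nat.mul_comm 2 (n * p)] at hok
  have hloc' : ∀ q δ : ℕ, q.Prime → q ∣ n → n * p * 2 = q * δ →
      (¬ (q : ℤ) ∣ b → IsSquare (b : ZMod q)) ∧
      (∀ β : ℤ, b = q * β → IsSquare ((-(δ * β) : ℤ) : ZMod q)) := fun q δ hq hqn hδ =>
    hloc q δ hq hqn (by rw [Nat.mul_comm 2 (n * p)]; exact hδ)
  rcases hb2 with hb2 | ⟨b', hb', hb2⟩
  · have hbo : Odd b.natAbs := Nat.odd_iff.mpr (by omega)
    have hb3 : b.natAbs ∣ n * p * 3 := by
      have hcop2 : Nat.Coprime b.natAbs 2 := Nat.Coprime.symm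
        ((Nat.Prime.coprime_iff_not_dvd Nat.prime_two).mpr fun h =>
          (Nat.not_even_iff_odd.mpr hbo) (even_iff_two_dvd.mpr h))
      apply hcop2.dvd_of_dvd_mul_right
      rw [show n * p * 3 * 2 = n * p * 2 * 3 by ring]
      exact hb
    have h := lin (D := n * p * 2) (b := b) (b' := b) (c := 1) (s := κ)
      (z := 0) hn ho h3 h5 hp p5 hpn hs
      (Or.inr ⟨rfl, rfl⟩) (Or.inl ⟨rfl, mul_zero _⟩) hb3 ?_ ?_ hb5
      (sq5 hok.2) hloc' (by rw [← MM3s_eq]; exact hc)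
    · rcases h with h | h
      · exact Or.inl h.1
      · exact absurd h.2 zero_ne_one
    · rw [zero_mul, if_neg (by omega)]
    · rw [bit_two hbo, zero_mul, if_neg (by omega)]
  · have hbo : Odd b'.natAbs := Nat.odd_iff.mpr (by omega)
    have hb3 : b'.natAbs ∣ n * p * 3 := by
      rw [hb', Int.natAbs_mul, show n * p * 2 * 3 = 2 * (n * p * 3) by ring] at hb
      exact Nat.dvd_of_mul_dvd_mul_left (by norm_num) hb
    have h := lin (D := n * p * 2) (b := b) (b' := b') (c := 1) (s := κ)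
      (z := 1) hn ho h3 h5 hp p5 hpn hs
      (Or.inr ⟨rfl, rfl⟩) (Or.inr ⟨hb', mul_one _⟩) hb3 ?_ ?_ hb5
      (sq5 hok.2) hloc' (by rw [← MM3s_eq]; exact hc)
    · rcases h with h | h
      · exact absurd h.2.symm zero_ne_one
      · right
        rw [hb', h.1]
        push_cast
        ring
    · rw [one_mul]
      by_cases h' : (n * p) % 4 = 1
      · rw [hκ.mp h', if_pos (by omega)]
      · have h'' : κ ≠ 1 := fun h => h' (hκ.mpr h)
        have h3 : ∀ t : ZMod 2, t ≠ 1 → t = 0 := by decide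
        rw [h3 κ h'', if_neg (by omega)]
    · have e3 : bit (2 : ℤ) (n * p) = if (n * p) % 8 = 3 ∨ (n * p) % 8 = 5 then 1 else 0 :=
        bit_two hdo
      rw [bit_two hbo, one_mul, e3]
      by_cases h' : (n * p) % 8 = 3 ∨ (n * p) % 8 = 5
      · rw [if_pos h', if_pos (by omega)]
      · rw [if_neg h', if_neg (by omega)]

end Vale.Agent.P017.R4.H538
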