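import Vale.Agent.P017.R4.H538.Red3

/-!
# P017, even discriminants: the class group criterion for `d = m`, `m = 1 mod 4`
-/

open Finset

namespace Vale.Agent.P017.R4.H538

open Vale.Agent.P017.R2.H985 (bit PF Pat sym Mat cork)
open Vale.Agent.P017.R2.H816
open Vale.Agent.P017.R3
open Vale.Agent.P017.R3.H985 (bit_dvd sum_pf ker_zero ext_mulVec)

/-- the equation of the prime `q` -/
theorem eqn' {D d b q δ : ℕ} (hD : Squarefree D) (hb : b ∣ D) (hd : d ∣ D) (hq : q.Prime)
    (hδ : d = q * δ) (h1 : ¬ q ∣ b → IsSquare ((b : ℕ) : ZMod q))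
    (h2 : ∀ β : ℕ, b = q * β → IsSquare ((β * δ : ℕ) : ZMod q)) :
    (∑ r ∈ D.primeFactors, (if r ∣ b then 1 else 0) * bit (r : ℤ) q) +
      (if q ∣ b then 1 else 0) * ∑ r ∈ D.primeFactors, (if r ∣ d then bit (r : ℤ) q else 0) = 0 := by
  have e0 : (∑ r ∈ D.primeFactors, (if r ∣ b then 1 else 0) * bit (r : ℤ) q) =
      ∑ r ∈ D.primeFactors, if r ∣ b then bit (r : ℤ) q else 0 := by
    apply sum_congr rfl
    intro r _
    split_ifs <;> simp
  rw [e0]
  by_cases hqb : q ∣ b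
  · obtain ⟨β, hβ⟩ := hqb
    have g1 := (bit_dvd hD hb hq).2 β hβ
    have g2 := (bit_dvd hD hd hq).2 δ hδ
    have g3 := bit_of_isSquare (a := ((β * δ : ℕ) : ℤ)) (q := q) (by exact_mod_cast h2 β hβ)
    have hj : ∀ c : ℕ, ¬ q ∣ c → jacobiSym (c : ℤ) q ≠ 0 := by
      intro c hc'
      have _ := NeZero.mk hq.ne_zero
      apply jacobiSym.ne_zero
      rw [Int.gcd_natCast_natCast]
      exact ((Nat.Prime.coprime_iff_not_dvd hq).mpr hc').symm
    have hqβ : ¬ q ∣ β := by
      intro h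
      have : q * q ∣ D := (Nat.mul_dvd_mul_left q h).trans (hβ ▸ hb)
      exact hq.one_lt.ne' (Nat.isUnit_iff.mp (hD q this))
    have hqδ : ¬ q ∣ δ := by
      intro h
      have : q * q ∣ D := (Nat.mul_dvd_mul_left q h).trans (hδ ▸ hd)
      exact hq.one_lt.ne' (Nat.isUnit_iff.mp (hD q this))
    push_cast at g3
    rw [bit_mul (hj β hqβ) (hj δ hqδ), g1, g2] at g3
    rw [if_pos ⟨β, hβ⟩, one_mul]
    exact g3
  · have g1 := (bit_dvd hD hb hq).1 hqb
    have g3 := bit_of_isSquare (a := (b : ℤ)) (q := q) (by exact_mod_cast h1 hqb)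
    rw [if_neg hqb, zero_mul, add_zero, ← g1, g3]

theorem MM2_eq (n : ℕ) (w : Pat n) (ρ : ZMod 2) : MM2' n w ρ =
    ext (Mat n w + Matrix.diagonal ((0 : ZMod 2) • lam n)) (lam n)
      ((0 : ZMod 2) • lam n + (1 : ZMod 2) • mu n) ((∑ q : PF n, lam n q) + ρ) := by
  have h : Matrix.diagonal (0 : PF n → ZMod 2) = 0 := Matrix.diagonal_zero
  unfold MM2'
  rw [zero_smul, one_smul, zero_add, h, add_zero, add_comm ρ]
  rfl

theorem stmtRed2' : StmtRed2' := by
  classical
  intro n hn ho p hp hp2 hpn h4 hc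
  have hn0 := hn.ne_zero
  have h2p : Nat.Prime 2 := Nat.prime_two
  have h2n : ¬ 2 ∣ n := fun h => (Nat.not_even_iff_odd.mpr ho) (even_iff_two_dvd.mpr h)
  have hcop : Nat.Coprime n p := ((Nat.Prime.coprime_iff_not_dvd hp).mpr hpn).symm
  have hd : Squarefree (n * p) := (Nat.squarefree_mul hcop).mpr ⟨hn, hp.squarefree⟩
  have h2d : ¬ 2 ∣ n * p := by omega
  have hD : Squarefree (n * p * 2) :=
    (Nat.squarefree_mul ((Nat.Prime.coprime_iff_not_dvd h2p).mpr h2d).symm).mpr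
      ⟨hd, h2p.squarefree⟩
  have hsum : ∀ f : ℕ → ZMod 2, ∑ r ∈ (n * p * 2).primeFactors, f r =
      (∑ q : PF n, f q) + f p + f 2 := fun f => sum_pf hn0 hp h2p hpn h2n hp2 f
  intro a y ha hy hloc
  have ha0 : a ≠ 0 := by
    rintro rfl
    exact hd.ne_zero (zero_dvd_iff.mp ha)
  have hb : y * a ∣ n * p * 2 := by
    rw [Nat.mul_comm y a]
    refine Nat.mul_dvd_mul ha ?_
    rcases hy with h | h
    · rw [h]; exact one_dvd 2
    · rw [h]
  let x : ℕ → ZMod 2 := fun r => if r ∣ y * a then 1 else 0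
  have hdx : ∀ q : ℕ, (∑ r ∈ (n * p * 2).primeFactors, if r ∣ n * p then bit (r : ℤ) q else 0) =
      (∑ r : PF n, bit ((r : ℕ) : ℤ) q) + bit (p : ℤ) q := by
    intro q
    rw [hsum, if_pos (dvd_mul_left p n), if_neg h2d, add_zero]
    congr 1
    apply sum_congr rfl
    intro r _
    rw [if_pos ((Nat.dvd_of_mem_primeFactors r.2).mul_right p)]
  have hqy : ∀ q : ℕ, q.Prime → q ∣ n * p → ¬ q ∣ y := by
    intro q hq hqd h
    rcases hy with h' | h'
    · rw [h'] at h
      exact hq.one_lt.ne' (Nat.dvd_one.mp h)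
    · rw [h'] at h
      rw [(Nat.prime_dvd_prime_iff_eq hq h2p).mp h] at hqd
      exact h2d hqd
  have hE : ∀ q : ℕ, q.Prime → (q ∣ n ∨ q = p) → (∑ r : PF n, x r * bit ((r : ℕ) : ℤ) q) +
      x p * bit (p : ℤ) q + x 2 * bit (2 : ℤ) q +
      x q * ((∑ k : PF n, bit ((k : ℕ) : ℤ) q) + bit (p : ℤ) q + 0 * bit (2 : ℤ) q) = 0 := by
    intro q hq hqd
    have hqD : q ∣ n * p := by
      rcases hqd with h | h
      · exact h.mul_right p
      · rw [h]; exact dvd_mul_left p n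
    have hqy' := hqy q hq hqD
    obtain ⟨δ, hδ⟩ := hqD
    have hl := hloc q hq ⟨δ, hδ⟩
    have h := eqn' hD hb (dvd_mul_right (n * p) 2) hq hδ (fun h => hl.1 fun h' => h (h'.mul_left y)) ?_
    · rw [hdx, hsum] at h
      rw [zero_mul, add_zero]
      exact h
    · intro β hβ
      have hqa : q ∣ a := ((Nat.Prime.dvd_mul hq).mp ⟨β, hβ⟩).resolve_left hqy'
      have h2 := hl.2 hqa
      obtain ⟨α, hα⟩ := hqa
      obtain ⟨c, hc'⟩ := ha
      have h1 : n * p / a = c := by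
        rw [hc']; exact Nat.mul_div_cancel_left c (Nat.pos_of_ne_zero ha0)
      rw [h1] at h2
      have h3 : δ = α * c := by
        apply Nat.eq_of_mul_eq_mul_left hq.pos
        rw [← hδ, hc', hα]
        ring
      have h4 : β = y * α := by
        apply Nat.eq_of_mul_eq_mul_left hq.pos
        rw [← hβ, hα]
        ring
      obtain ⟨t, ht⟩ := h2
      refine ⟨α * t, ?_⟩
      rw [h3, h4]
      push_cast at ht ⊢
      linear_combination (α : ZMod q) ^ 2 * ht
  have hs : (1 : ZMod 2) = (∑ q : PF n, mu n q) + eps p + 1 :=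
    kappa hn ho hp hp2 ⟨fun _ => rfl, fun _ => h4⟩
  have hfin := core hn ho hp hp2 hpn 0 1 hs x hE (by rw [← MM2_eq]; exact hc)
  have hx2 : x 2 = 0 := by rw [hfin.2, zero_mul]
  have h2b : ¬ 2 ∣ y * a := by
    intro h
    have : x 2 = 1 := if_pos h
    rw [hx2] at this
    exact zero_ne_one this
  have hy1 : y = 1 := by
    rcases hy with h | h
    · exact h
    · exact absurd (h ▸ dvd_mul_right 2 a) h2b
  refine ⟨hy1, ?_⟩
  have hxa : ∀ r : ℕ, x r = if r ∣ a then 1 else 0 := by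
    intro r
    simp only [x, hy1, one_mul]
  have hall : ∀ r ∈ (n * p).primeFactors, x r = x p := by
    intro r hr
    have hr1 := Nat.prime_of_mem_primeFactors hr
    rcases (Nat.Prime.dvd_mul hr1).mp (Nat.dvd_of_mem_primeFactors hr) with h | h
    · exact hfin.1 ⟨r, Nat.mem_primeFactors.mpr ⟨hr1, h, hn0⟩⟩
    · rw [(Nat.prime_dvd_prime_iff_eq hr1 hp).mp h]
  by_cases hpa : p ∣ a
  · right
    have hxp : x p = 1 := by rw [hxa, if_pos hpa]
    refine eq_of_all hd ha fun r hr => ?_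
    by_contra hcon
    have h2 : x r = 0 := by rw [hxa, if_neg hcon]
    rw [hall r hr, hxp] at h2
    exact one_ne_zero h2
  · left
    have hxp : x p = 0 := by rw [hxa, if_neg hpa]
    refine eq_one_of_none hd ha fun r hr hcon => ?_
    have h2 : x r = 1 := by rw [hxa, if_pos hcon]
    rw [hall r hr, hxp] at h2
    exact zero_ne_one h2

end Vale.Agent.P017.R4.H538
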