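import Vale.Agent.P017.R4.Defs
import Vale.Agent.P017.R4.H538.Core

/-!
# P017, even discriminants: the class group criterion for `d = 2m`
-/

open Finset

namespace Vale.Agent.P017.R4.H538

open Vale.Agent.P017.R2.H985 (bit PF Pat sym Mat cork)
open Vale.Agent.P017.R2.H816
open Vale.Agent.P017.R3
open Vale.Agent.P017.R3.H985 (bit_dvd sum_pf ker_zero ext_mulVec)

/-- the equation of the prime `q` -/
theorem eqn {D a q δ : ℕ} (hD : Squarefree D) (ha : a ∣ D) (hq : q.Prime) (hδ : D = q * δ)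
    (h1 : ¬ q ∣ a → IsSquare ((a : ℕ) : ZMod q))
    (h2 : ∀ β : ℕ, a = q * β → IsSquare ((β * δ : ℕ) : ZMod q)) :
    (∑ r ∈ D.primeFactors, (if r ∣ a then 1 else 0) * bit (r : ℤ) q) +
      (if q ∣ a then 1 else 0) * ∑ r ∈ D.primeFactors, bit (r : ℤ) q = 0 := by
  have e0 : (∑ r ∈ D.primeFactors, (if r ∣ a then 1 else 0) * bit (r : ℤ) q) =
      ∑ r ∈ D.primeFactors, if r ∣ a then bit (r : ℤ) q else 0 := by
    apply sum_congr rfl
    intro r _
    split_ifs <;> simp
  have e1 : (∑ r ∈ D.primeFactors, bit (r : ℤ) q) =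
      ∑ r ∈ D.primeFactors, if r ∣ D then bit (r : ℤ) q else 0 := by
    apply sum_congr rfl
    intro r hr
    rw [if_pos (Nat.dvd_of_mem_primeFactors hr)]
  rw [e0, e1]
  by_cases hqa : q ∣ a
  · obtain ⟨β, hβ⟩ := hqa
    have g1 := (bit_dvd hD ha hq).2 β hβ
    have g2 := (bit_dvd hD (dvd_refl D) hq).2 δ hδ
    have g3 := bit_of_isSquare (a := ((β * δ : ℕ) : ℤ)) (q := q) (by exact_mod_cast h2 β hβ)
    have hj : ∀ c : ℕ, ¬ q ∣ c → jacobiSym (c : ℤ) q ≠ 0 := by
      intro c hc'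
      have _ := NeZero.mk hq.ne_zero
      apply jacobiSym.ne_zero
      rw [Int.gcd_natCast_natCast]
      exact ((Nat.Prime.coprime_iff_not_dvd hq).mpr hc').symm
    have hqβ : ¬ q ∣ β := by
      intro h
      have : q * q ∣ D := (Nat.mul_dvd_mul_left q h).trans (hβ ▸ ha)
      exact hq.one_lt.ne' (Nat.isUnit_iff.mp (hD q this))
    have hqδ : ¬ q ∣ δ := by
      intro h
      have : q * q ∣ D := by rw [hδ]; exact Nat.mul_dvd_mul_left q h
      exact hq.one_lt.ne' (Nat.isUnit_iff.mp (hD q this))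
    push_cast at g3
    rw [bit_mul (hj β hqβ) (hj δ hqδ), g1, g2] at g3
    rw [if_pos ⟨β, hβ⟩, one_mul]
    exact g3
  · have g1 := (bit_dvd hD ha hq).1 hqa
    have g3 := bit_of_isSquare (a := (a : ℤ)) (q := q) (by exact_mod_cast h1 hqa)
    rw [if_neg hqa, zero_mul, add_zero, ← g1, g3]

theorem eq_of_all {D a : ℕ} (hD : Squarefree D) (ha : a ∣ D) (h : ∀ r ∈ D.primeFactors, r ∣ a) :
    a = D := by
  rw [← prod_if_dvd hD ha]
  conv_rhs => rw [← Nat.prod_primeFactors_of_squarefree hD]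
  exact prod_congr rfl fun r hr => if_pos (h r hr)

theorem eq_one_of_none {D a : ℕ} (hD : Squarefree D) (ha : a ∣ D)
    (h : ∀ r ∈ D.primeFactors, ¬ r ∣ a) : a = 1 := by
  rw [← prod_if_dvd hD ha]
  exact prod_eq_one fun r hr => if_neg (h r hr)

theorem eps_mul {a b : ℕ} (ha : Odd a) (hb : Odd b) : eps (a * b) = eps a + eps b := by
  have h1 := H224.mod4_of_odd ha
  have h2 := H224.mod4_of_odd hb
  unfold eps
  rw [Nat.mul_mod]
  rcases h1 with h1 | h1 <;> rcases h2 with h2 | h2 <;> rw [h1, h2] <;> decide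

theorem eps_prod (S : Finset ℕ) (h : ∀ q ∈ S, Odd q) :
    Odd (∏ q ∈ S, q) ∧ eps (∏ q ∈ S, q) = ∑ q ∈ S, eps q := by
  classical
  induction S using Finset.induction_on with
  | empty =>
    rw [prod_empty, sum_empty]
    exact ⟨odd_one, by decide⟩
  | insert i S hi ih =>
    have h' := ih fun j hj => h j (mem_insert_of_mem hj)
    have hi' := h i (mem_insert_self _ _)
    rw [prod_insert hi, sum_insert hi, eps_mul hi' h'.1, h'.2]
    exact ⟨hi'.mul h'.1, rfl⟩

theorem eps_n {n : ℕ} (hn : Squarefree n) (ho : Odd n) : eps n = ∑ q : PF n, mu n q := by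
  have h1 := eps_prod n.primeFactors fun q hq => by
    have := Nat.dvd_of_mem_primeFactors hq
    obtain ⟨c, hc⟩ := this
    rw [hc, Nat.odd_mul] at ho
    exact ho.1
  rw [Nat.prod_primeFactors_of_squarefree hn] at h1
  rw [h1.2, ← sum_coe_sort n.primeFactors]
  rfl

theorem kappa {n p : ℕ} (hn : Squarefree n) (ho : Odd n) (hp : p.Prime) (hp2 : p ≠ 2) {κ : ZMod 2}
    (h : (n * p) % 4 = 1 ↔ κ = 1) : κ = (∑ q : PF n, mu n q) + eps p + 1 := by
  have hpo := hp.odd_of_ne_two hp2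
  rw [← eps_n hn ho, ← eps_mul ho hpo]
  rcases H224.mod4_of_odd (ho.mul hpo) with h1 | h1
  · rw [h.mp h1]
    unfold eps
    rw [h1]
    decide
  · have h2 : κ ≠ 1 := by
      intro h3
      have := h.mpr h3
      omega
    have h3 : ∀ t : ZMod 2, t ≠ 1 → t = 1 + 1 := by decide
    rw [h3 κ h2]
    unfold eps
    rw [h1]
    rfl

theorem MM3_eq (κ : ZMod 2) (n : ℕ) (w : Pat n) (ρ : ZMod 2) : MM3 κ n w ρ =
    ext (Mat n w + Matrix.diagonal ((1 : ZMod 2) • lam n)) (lam n)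
      ((1 : ZMod 2) • lam n + κ • mu n) ((∑ q : PF n, lam n q) + ρ) := by
  have h1 : Mat n (fun q => w q + bit 2 q) =
      Mat n w + Matrix.diagonal ((1 : ZMod 2) • lam n) := by
    rw [one_smul]
    ext q q'
    rw [Matrix.add_apply]
    unfold Mat
    by_cases h : q' = q
    · subst h
      rw [if_pos rfl, if_pos rfl, Matrix.diagonal_apply_eq]
      unfold lam
      ring
    · rw [if_neg h, if_neg h, Matrix.diagonal_apply_ne _ (fun h' => h h'.symm), add_zero]
  unfold MM3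
  rw [h1, one_smul, add_comm ρ]
  rfl

theorem stmtRed3 : StmtRed3 := by
  classical
  intro κ n hn ho p hp hp2 hpn hκ hc
  have hn0 := hn.ne_zero
  have h2p : Nat.Prime 2 := Nat.prime_two
  have h2n : ¬ 2 ∣ n := fun h => (Nat.not_even_iff_odd.mpr ho) (even_iff_two_dvd.mpr h)
  have hcop : Nat.Coprime n p := ((Nat.Prime.coprime_iff_not_dvd hp).mpr hpn).symm
  have hd : Squarefree (n * p) := (Nat.squarefree_mul hcop).mpr ⟨hn, hp.squarefree⟩
  have h2d : ¬ 2 ∣ n * p := by
    intro h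
    rcases (Nat.Prime.dvd_mul h2p).mp h with h | h
    · exact h2n h
    · exact hp2 ((Nat.prime_dvd_prime_iff_eq h2p hp).mp h).symm
  have hD : Squarefree (n * p * 2) :=
    (Nat.squarefree_mul ((Nat.Prime.coprime_iff_not_dvd h2p).mpr h2d).symm).mpr
      ⟨hd, h2p.squarefree⟩
  have hsum : ∀ f : ℕ → ZMod 2, ∑ r ∈ (n * p * 2).primeFactors, f r =
      (∑ q : PF n, f q) + f p + f 2 := fun f => sum_pf hn0 hp h2p hpn h2n hp2 f
  rw [Nat.mul_comm 2 (n * p)]
  intro a ha hloc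
  have hD0 := hD.ne_zero
  have ha0 : a ≠ 0 := by
    rintro rfl
    exact hD0 (zero_dvd_iff.mp ha)
  let x : ℕ → ZMod 2 := fun r => if r ∣ a then 1 else 0
  have hE : ∀ q : ℕ, q.Prime → (q ∣ n ∨ q = p) → (∑ r : PF n, x r * bit ((r : ℕ) : ℤ) q) +
      x p * bit (p : ℤ) q + x 2 * bit (2 : ℤ) q +
      x q * ((∑ k : PF n, bit ((k : ℕ) : ℤ) q) + bit (p : ℤ) q + 1 * bit (2 : ℤ) q) = 0 := by
    intro q hq hqd
    have hqD : q ∣ n * p * 2 := by
      rcases hqd with h | h
      · exact (h.mul_right p).mul_right 2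
      · rw [h]; exact (dvd_mul_left p n).mul_right 2
    obtain ⟨δ, hδ⟩ := hqD
    have hl := hloc q hq ⟨δ, hδ⟩
    have h := eqn hD ha hq hδ hl.1 ?_
    · rw [hsum, hsum] at h
      rw [one_mul]
      exact h
    · intro β hβ
      obtain ⟨c, hc'⟩ := ha
      have h1 : n * p * 2 / a = c := by
        rw [hc']; exact Nat.mul_div_cancel_left c (Nat.pos_of_ne_zero ha0)
      have h2 := hl.2 ⟨β, hβ⟩
      rw [h1] at h2
      have h3 : δ = β * c := by
        apply Nat.eq_of_mul_eq_mul_left hq.pos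
        rw [← hδ, hc', hβ]
        ring
      obtain ⟨t, ht⟩ := h2
      refine ⟨β * t, ?_⟩
      rw [h3]
      push_cast
      rw [ht]
      ring
  have hfin := core hn ho hp hp2 hpn 1 κ (kappa hn ho hp hp2 hκ) x hE (by rw [← MM3_eq]; exact hc)
  have hall : ∀ r ∈ (n * p * 2).primeFactors, x r = x p := by
    intro r hr
    have hr1 := Nat.prime_of_mem_primeFactors hr
    rcases (Nat.Prime.dvd_mul hr1).mp (Nat.dvd_of_mem_primeFactors hr) with h | h
    · rcases (Nat.Prime.dvd_mul hr1).mp h with h | h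
      · exact hfin.1 ⟨r, Nat.mem_primeFactors.mpr ⟨hr1, h, hn0⟩⟩
      · rw [(Nat.prime_dvd_prime_iff_eq hr1 hp).mp h]
    · rw [(Nat.prime_dvd_prime_iff_eq hr1 h2p).mp h, hfin.2, one_mul]
  by_cases hpa : p ∣ a
  · right
    have hxp : x p = 1 := if_pos hpa
    refine eq_of_all hD ha fun r hr => ?_
    by_contra hcon
    have h2 : x r = 0 := if_neg hcon
    rw [hall r hr, hxp] at h2
    exact one_ne_zero h2
  · left
    have hxp : x p = 0 := if_neg hpa
    refine eq_one_of_none hD ha fun r hr hcon => ?_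
    have h2 : x r = 1 := if_pos hcon
    rw [hall r hr, hxp] at h2
    exact zero_ne_one h2

end Vale.Agent.P017.R4.H538
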